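import Vale.Agent.P203.Vdl.Run

/-! P203, block VDL, part 2: the braid relations for the state machine. -/

set_option linter.all false

namespace Vale.Agent.P203.Vdl

open Vale.Agent.P203.Cox CoxeterSystem

variable {B : Type*} {W : Type*} [Group W] {M : CoxeterMatrix B} {cs : CoxeterSystem M W}

/-- the alternating word of length `n` starting with `a` -/
def alt (a b : B) : ℕ → List B
  | 0 => []
  | n + 1 => a :: alt b a n

theorem alt_zero (a b : B) : alt a b 0 = [] := rfl
theorem alt_succ (a b : B) (n : ℕ) : alt a b (n + 1) = a :: alt b a n := rfl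

theorem alternatingWord_eq_alt (a b : B) (n : ℕ) :
    alternatingWord a b n = if Even n then alt a b n else alt b a n := by
  induction n with
  | zero => simp [alternatingWord, alt]
  | succ n ih =>
    rw [alternatingWord_succ', ih]
    by_cases hn : Even n
    · have hn' : ¬ Even (n + 1) := by simpa [Nat.even_add_one] using hn
      rw [if_pos hn, if_pos hn, if_neg hn', alt_succ]
    · have hn' : Even (n + 1) := by simpa [Nat.even_add_one] using hn
      rw [if_neg hn, if_neg hn, if_pos hn', alt_succ]

/-- the letter following `alt a b k` in `alt a b n`, `k < n` -/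
def nx (a b : B) (k : ℕ) : B := if Even k then a else b

theorem nx_zero (a b : B) : nx a b 0 = a := by simp [nx]

theorem nx_succ (a b : B) (k : ℕ) : nx a b (k + 1) = nx b a k := by
  unfold nx
  by_cases hk : Even k
  · have hk' : ¬ Even (k + 1) := by simpa [Nat.even_add_one] using hk
    rw [if_pos hk, if_neg hk']
  · have hk' : Even (k + 1) := by simpa [Nat.even_add_one] using hk
    rw [if_neg hk, if_pos hk']

theorem alt_eq_append {p q : List B} {s : B} : ∀ {n : ℕ} {a b : B}, alt a b n = p ++ s :: q →
    p.length < n ∧ p = alt a b p.length ∧ s = nx a b p.length := by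
  induction p with
  | nil =>
    intro n a b h
    cases n with
    | zero => simp [alt] at h
    | succ n =>
      simp only [alt_succ, List.nil_append, List.cons.injEq] at h
      simp [h.1, nx_zero, alt_zero]
  | cons c p ih =>
    intro n a b h
    cases n with
    | zero => simp [alt] at h
    | succ n =>
      simp only [alt_succ, List.cons_append, List.cons.injEq] at h
      obtain ⟨h1, h2⟩ := h
      obtain ⟨h3, h4, h5⟩ := ih h2
      refine ⟨by simp; omega, ?_, ?_⟩
      · rw [List.length_cons, alt_succ, ← h4, h1]
      · rw [List.length_cons, nx_succ, h5]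

theorem gram_eq_form (a b : B) :
    form M (Finsupp.single a 1) (Finsupp.single b 1) = gram M a b := datum_act a b

theorem act_alt (k : ℕ) : ∀ a b : B,
    act cs (cs.wordProd (alt a b k)) (Finsupp.single (nx a b k) 1) =
      chs (-gram M a b) (k + 1) • Finsupp.single a 1 +
        chs (-gram M a b) k • Finsupp.single b 1 := by
  induction k with
  | zero =>
    intro a b
    simp [alt, nx, chs_one, chs_zero]
  | succ k ih =>
    intro a b
    rw [alt_succ, nx_succ, cs.wordProd_cons, act_mul_apply, ih b a, act_simple]
    simp only [map_add, map_smul, datum_act, gram_self, smul_eq_mul]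
    rw [chs_add_two, gram_comm b a]
    module

theorem chs_ne_zero {a b : B} {k : ℕ} (hk : 0 < k) (hk' : k < M a b) :
    chs (-gram M a b) k ≠ 0 := by
  have hm : M a b ≠ 0 := by omega
  have h1 : -gram M a b = 2 * Real.cos (Real.pi / (M a b)) := by
    simp [gram, hm]
  have hmpos : (0 : ℝ) < M a b := by exact_mod_cast Nat.pos_of_ne_zero hm
  have h2 := chs_cos (Real.pi / (M a b)) k
  intro h0
  rw [h1] at h0
  rw [h0, zero_mul] at h2
  have h3 : 0 < Real.sin ((k : ℝ) * (Real.pi / (M a b))) := by
    apply Real.sin_pos_of_pos_of_lt_pi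
    · have : (0 : ℝ) < k := by exact_mod_cast hk
      have := Real.pi_pos
      positivity
    · have hk2 : (k : ℝ) < M a b := by exact_mod_cast hk'
      rw [← mul_div_assoc, div_lt_iff₀ hmpos, mul_comm]
      exact mul_lt_mul_of_pos_left hk2 Real.pi_pos
  linarith

/-- no letter is emitted if no `w p α_s` is supported on `X` -/
theorem no_emit {X : Set B} : ∀ (ω : List B) (w : W),
    (∀ p s q, ω = p ++ s :: q →
      act cs (w * cs.wordProd p) (Finsupp.single s 1) ∉ Sup X) →
    cw cs X w ω = []
  | [], w, _ => rfl
  | s :: ω, w, h => by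
    have h0 : letter cs X w s = none := by
      rw [letter_none]
      intro x hx h1
      apply h [] s ω rfl
      rw [cs.wordProd_nil, mul_one, h1]
      exact Finsupp.single_mem_supported ℝ 1 hx
    rw [cw_none h0]
    apply no_emit ω
    intro p t q hp
    have := h (s :: p) t q (by rw [hp]; rfl)
    rwa [cs.wordProd_cons, ← mul_assoc] at this

theorem cw_alt_eq_nil {X : Set B} {w : W} {a b : B} {n : ℕ} (hn : n + 1 ≤ M a b)
    (ha : act cs w (Finsupp.single a 1) ∈ Sup X)
    (hb : act cs w (Finsupp.single b 1) ∉ Sup X) : cw cs X w (alt b a n) = [] := by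
  apply no_emit
  intro p s q hp
  obtain ⟨h1, h2, h3⟩ := alt_eq_append hp
  have hk := chs_ne_zero (M := M) (a := b) (b := a) (k := p.length + 1) (by omega)
    (by rw [M.symmetric]; omega)
  have h4 := act_alt (cs := cs) p.length b a
  rw [← h2, ← h3] at h4
  rw [act_mul_apply, h4, map_add, map_smul, map_smul]
  intro h5
  have h6 := Submodule.sub_mem _ h5 (Submodule.smul_mem _ (chs (-gram M b a) p.length) ha)
  rw [add_sub_cancel_right] at h6
  exact hb ((Submodule.smul_mem_iff _ hk).1 h6)

/-- if not both `w α_a`, `w α_b` are supported on `X`, at most one letter is emitted -/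
theorem length_cw_alt_le {X : Set B} (n : ℕ) : ∀ {w : W} {a b : B} (_ : XMin cs X w)
    (_ : n ≤ M a b)
    (_ : ¬ (act cs w (Finsupp.single a 1) ∈ Sup X ∧ act cs w (Finsupp.single b 1) ∈ Sup X)),
    (cw cs X w (alt a b n)).length ≤ 1 := by
  induction n with
  | zero => intro w a b _ _ _; simp [alt, cw_nil]
  | succ n ih =>
    intro w a b hw hn hnot
    rw [alt_succ]
    rcases h : letter cs X w a with _ | x
    · rw [cw_none h]
      apply ih (hw.mul (letter_none.1 h))
      · rw [M.symmetric]; omega
      · rintro ⟨h1, h2⟩
        rw [act_mul_apply, act_simple, map_sub, map_smul] at h1 h2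
        rw [datum_act, gram_self, two_smul, sub_add_cancel_left] at h2
        have h3 := (Submodule.neg_mem_iff _).1 h2
        refine hnot ⟨h3, ?_⟩
        have h4 := Submodule.add_mem _ h1 (Submodule.smul_mem _
          (form M (Finsupp.single a 1) (Finsupp.single b 1)) h3)
        simpa using h4
    · rw [cw_some h]
      obtain ⟨hx, hx'⟩ := letter_some.1 h
      have ha : act cs w (Finsupp.single a 1) ∈ Sup X := by
        rw [hx']; exact Finsupp.single_mem_supported ℝ 1 hx
      rw [cw_alt_eq_nil hn ha (fun hb => hnot ⟨ha, hb⟩)]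
      simp

theorem cw_alt_full {X : Set B} {w : W} (n : ℕ) : ∀ {a b x y : B} (_ : x ∈ X) (_ : y ∈ X)
    (_ : act cs w (Finsupp.single a 1) = Finsupp.single x 1)
    (_ : act cs w (Finsupp.single b 1) = Finsupp.single y 1),
    cw cs X w (alt a b n) = alt x y n := by
  induction n with
  | zero => intros; rfl
  | succ n ih =>
    intro a b x y hx hy ha hb
    rw [alt_succ, alt_succ, cw_some (letter_some.2 ⟨hx, ha⟩), ih hy hx hb ha]

theorem M_eq_of_gram {a b x y : B} (hab : a ≠ b) (hxy : x ≠ y)
    (h : gram M a b = gram M x y) : M a b = M x y := by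
  have key : ∀ {a b : B}, a ≠ b → M a b ≠ 0 → 2 ≤ M a b := by
    intro a b hab h0
    have h1 := M.off_diagonal a b hab
    omega
  have harg : ∀ {m : ℕ}, 2 ≤ m → Real.pi / (m : ℝ) ∈ Set.Icc 0 Real.pi := by
    intro m hm
    have hm' : (2 : ℝ) ≤ m := by exact_mod_cast hm
    have := Real.pi_pos
    constructor
    · positivity
    · exact div_le_self this.le (by linarith)
  have hlt : ∀ {m : ℕ}, 2 ≤ m → Real.cos (Real.pi / (m : ℝ)) ≠ 1 := by
    intro m hm h1
    have hm' : (2 : ℝ) ≤ m := by exact_mod_cast hm
    have h2 := Real.injOn_cos (harg hm) (Set.left_mem_Icc.2 Real.pi_pos.le)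
      (by rw [h1, Real.cos_zero])
    have : Real.pi / (m : ℝ) > 0 := by have := Real.pi_pos; positivity
    linarith
  unfold gram at h
  by_cases h0 : M a b = 0
  · by_cases h1 : M x y = 0
    · rw [h0, h1]
    · rw [if_pos h0, if_neg h1] at h
      exfalso
      exact hlt (key hxy h1) (by linarith)
  · by_cases h1 : M x y = 0
    · rw [if_neg h0, if_pos h1] at h
      exfalso
      exact hlt (key hab h0) (by linarith)
    · rw [if_neg h0, if_neg h1] at h
      have h2 := Real.injOn_cos (harg (key hab h0)) (harg (key hxy h1)) (by linarith)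
      have h3 : (M a b : ℝ) = M x y := by
        have hp := Real.pi_pos
        have ha : (M a b : ℝ) ≠ 0 := by exact_mod_cast h0
        have hx : (M x y : ℝ) ≠ 0 := by exact_mod_cast h1
        field_simp at h2
        nlinarith
      exact_mod_cast h3

theorem cw_eq_of_length_le {X : Set B} {c c' : List B} (h : c.length ≤ 1) (h' : c'.length ≤ 1)
    (he : cs.wordProd c = cs.wordProd c') : c = c' := by
  have hone : ∀ x : B, cs.simple x ≠ 1 := by
    intro x hx
    have := cs.length_simple x
    rw [hx, cs.length_one] at this
    omega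
  match c, c', h, h' with
  | [], [], _, _ => rfl
  | [], [x], _, _ =>
    exfalso; rw [cs.wordProd_nil, cs.wordProd_singleton] at he; exact hone x he.symm
  | [x], [], _, _ =>
    exfalso; rw [cs.wordProd_nil, cs.wordProd_singleton] at he; exact hone x he
  | [x], [y], _, _ =>
    rw [cs.wordProd_singleton, cs.wordProd_singleton] at he
    rw [simple_inj he]
  | _ :: _ :: _, _, h, _ => simp at h
  | _, _ :: _ :: _, _, h => simp at h

/-- **The braid relation for the state machine.** -/
theorem braid_run {X : Set B} {w : W} (hw : XMin cs X w) {s t : B} (hst : s ≠ t)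
    (hm : M s t ≠ 0) {G : Type*} [Group G] {γ : B → G}
    (hγ : ∀ x ∈ X, ∀ y ∈ X, M x y ≠ 0 →
      ((alternatingWord x y (M x y)).map γ).prod = ((alternatingWord y x (M x y)).map γ).prod) :
    endW cs X w (alternatingWord s t (M s t)) = endW cs X w (alternatingWord t s (M s t)) ∧
    ((cw cs X w (alternatingWord s t (M s t))).map γ).prod =
      ((cw cs X w (alternatingWord t s (M s t))).map γ).prod := by
  have hprod : cs.wordProd (alternatingWord s t (M s t)) =
      cs.wordProd (alternatingWord t s (M s t)) := by
    have := cs.wordProd_braidWord_eq s t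
    unfold CoxeterSystem.braidWord at this
    rwa [M.symmetric t s] at this
  obtain ⟨h1, h2⟩ := cw_unique hw hprod
  refine ⟨h2, ?_⟩
  by_cases hfull : act cs w (Finsupp.single s 1) ∈ Sup X ∧ act cs w (Finsupp.single t 1) ∈ Sup X
  · obtain ⟨x, hx, hsx⟩ := exists_of_mem_Sup hw hfull.1
    obtain ⟨y, hy, hty⟩ := exists_of_mem_Sup hw hfull.2
    have hxy : x ≠ y := by
      rintro rfl
      have h3 := hsx.trans hty.symm
      have h4 := congrArg (act cs w⁻¹) h3
      rw [act_inv_apply_self, act_inv_apply_self] at h4
      exact hst (Finsupp.single_left_injective one_ne_zero h4)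
    have hM : M s t = M x y := by
      apply M_eq_of_gram hst hxy
      rw [← datum_act, ← datum_act, ← hsx, ← hty, form_act]
    have e1 : ∀ n, cw cs X w (alternatingWord s t n) = alternatingWord x y n := by
      intro n
      rw [alternatingWord_eq_alt, alternatingWord_eq_alt]
      split_ifs
      · exact cw_alt_full n hx hy hsx hty
      · exact cw_alt_full n hy hx hty hsx
    have e2 : ∀ n, cw cs X w (alternatingWord t s n) = alternatingWord y x n := by
      intro n
      rw [alternatingWord_eq_alt, alternatingWord_eq_alt]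
      split_ifs
      · exact cw_alt_full n hy hx hty hsx
      · exact cw_alt_full n hx hy hsx hty
    rw [e1, e2, hM]
    exact hγ x hx y hy (hM ▸ hm)
  · have hfull' : ¬ (act cs w (Finsupp.single t 1) ∈ Sup X ∧
        act cs w (Finsupp.single s 1) ∈ Sup X) := fun h => hfull ⟨h.2, h.1⟩
    have e1 : (cw cs X w (alternatingWord s t (M s t))).length ≤ 1 := by
      rw [alternatingWord_eq_alt]
      split_ifs
      · exact length_cw_alt_le _ hw le_rfl hfull
      · exact length_cw_alt_le _ hw (by rw [M.symmetric]) hfull'
    have e2 : (cw cs X w (alternatingWord t s (M s t))).length ≤ 1 := by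
      rw [alternatingWord_eq_alt]
      split_ifs
      · exact length_cw_alt_le _ hw (by rw [M.symmetric]) hfull'
      · exact length_cw_alt_le _ hw le_rfl hfull
    rw [cw_eq_of_length_le (X := X) e1 e2 h1]

end Vale.Agent.P203.Vdl
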