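import Vale.Agent.P203.Defs
import Vale.Agent.P203.Vdl.Braid

/-! P203, block VDL, part 3: the retraction `A_S → A_X` and its consequences:
* `inclA_injective`: `ArtinGroup (M|X) → ArtinGroup M` is injective (van der Lek);
* `closure_inf_closure`: `A_X ∩ A_Y = A_{X ∩ Y}` inside `A_S`;
* `retr`: the set-theoretic retraction, with `retr_mul` (left `A_X`-equivariance),
  `retr_of_mem`, `retr_mem` and `retr_mem_inter`. -/

set_option linter.all false

namespace Vale.Agent.P203.Vdl

open Vale.Agent.P203.Cox CoxeterSystem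

variable {S : Type} {M : CoxeterMatrix S}

section Action

variable {W : Type*} [Group W] (cs : CoxeterSystem M W) (X : Set S) {G : Type*} [Group G]
  (γ : S → G)

/-- the state space: pairs (element of `G`, minimal coset representative) -/
def St (G : Type*) := G × {w : W // XMin cs X w}

open Classical in
/-- reading a letter -/
noncomputable def stp (s : S) (p : G × {w : W // XMin cs X w}) : G × {w : W // XMin cs X w} :=
  if h : ∃ x ∈ X, act cs p.2.1 (Finsupp.single s 1) = Finsupp.single x 1 then
    (p.1 * γ h.choose, p.2)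
  else (p.1, ⟨p.2.1 * cs.simple s, p.2.2.mul (by push Not at h; exact h)⟩)

open Classical in
/-- undoing a letter -/
noncomputable def ustp (s : S) (p : G × {w : W // XMin cs X w}) : G × {w : W // XMin cs X w} :=
  if h : ∃ x ∈ X, act cs p.2.1 (Finsupp.single s 1) = Finsupp.single x 1 then
    (p.1 * (γ h.choose)⁻¹, p.2)
  else (p.1, ⟨p.2.1 * cs.simple s, p.2.2.mul (by push Not at h; exact h)⟩)

variable {cs X γ}

theorem stp_some {s x : S} {g : G} {w : W} {hw : XMin cs X w} (hx : x ∈ X)
    (h : act cs w (Finsupp.single s 1) = Finsupp.single x 1) :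
    stp cs X γ s (g, ⟨w, hw⟩) = (g * γ x, ⟨w, hw⟩) := by
  have h' : ∃ x ∈ X, act cs w (Finsupp.single s 1) = Finsupp.single x 1 := ⟨x, hx, h⟩
  unfold stp
  rw [dif_pos h']
  have h2 := h'.choose_spec.2
  have h3 : h'.choose = x := Finsupp.single_left_injective one_ne_zero (h2.symm.trans h)
  rw [h3]

theorem stp_none {s : S} {g : G} {w : W} {hw : XMin cs X w}
    (h : ∀ x ∈ X, act cs w (Finsupp.single s 1) ≠ Finsupp.single x 1) :
    stp cs X γ s (g, ⟨w, hw⟩) = (g, ⟨w * cs.simple s, hw.mul h⟩) := by
  have h' : ¬ ∃ x ∈ X, act cs w (Finsupp.single s 1) = Finsupp.single x 1 := by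
    push Not; exact h
  unfold stp
  rw [dif_neg h']

theorem ustp_some {s x : S} {g : G} {w : W} {hw : XMin cs X w} (hx : x ∈ X)
    (h : act cs w (Finsupp.single s 1) = Finsupp.single x 1) :
    ustp cs X γ s (g, ⟨w, hw⟩) = (g * (γ x)⁻¹, ⟨w, hw⟩) := by
  have h' : ∃ x ∈ X, act cs w (Finsupp.single s 1) = Finsupp.single x 1 := ⟨x, hx, h⟩
  unfold ustp
  rw [dif_pos h']
  have h2 := h'.choose_spec.2
  have h3 : h'.choose = x := Finsupp.single_left_injective one_ne_zero (h2.symm.trans h)
  rw [h3]

theorem ustp_none {s : S} {g : G} {w : W} {hw : XMin cs X w}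
    (h : ∀ x ∈ X, act cs w (Finsupp.single s 1) ≠ Finsupp.single x 1) :
    ustp cs X γ s (g, ⟨w, hw⟩) = (g, ⟨w * cs.simple s, hw.mul h⟩) := by
  have h' : ¬ ∃ x ∈ X, act cs w (Finsupp.single s 1) = Finsupp.single x 1 := by
    push Not; exact h
  unfold ustp
  rw [dif_neg h']

/-- after a move without output the next identical letter has no output -/
theorem none_mul {s : S} {w : W} (hw : XMin cs X w) :
    ∀ x ∈ X, act cs (w * cs.simple s) (Finsupp.single s 1) ≠ Finsupp.single x 1 := by
  intro x hx h
  rw [act_mul_apply, act_simple_self, map_neg] at h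
  have h1 := hw x hx
  rw [← h, map_neg, act_inv_apply_self] at h1
  exact single_ne_zero' s (eq_zero_of_NN (NN_single s) h1)

theorem ustp_stp (s : S) (p : G × {w : W // XMin cs X w}) :
    ustp cs X γ s (stp cs X γ s p) = p := by
  obtain ⟨g, w, hw⟩ := p
  by_cases h : ∃ x ∈ X, act cs w (Finsupp.single s 1) = Finsupp.single x 1
  · obtain ⟨x, hx, h⟩ := h
    rw [stp_some hx h, ustp_some hx h, mul_inv_cancel_right]
  · push Not at h
    rw [stp_none h, ustp_none (none_mul hw)]
    simp

theorem stp_ustp (s : S) (p : G × {w : W // XMin cs X w}) :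
    stp cs X γ s (ustp cs X γ s p) = p := by
  obtain ⟨g, w, hw⟩ := p
  by_cases h : ∃ x ∈ X, act cs w (Finsupp.single s 1) = Finsupp.single x 1
  · obtain ⟨x, hx, h⟩ := h
    rw [ustp_some hx h, stp_some hx h, inv_mul_cancel_right]
  · push Not at h
    rw [ustp_none h, stp_none (none_mul hw)]
    simp

variable (cs X γ) in
/-- reading a letter, as a permutation -/
noncomputable def stpE (s : S) : Equiv.Perm (G × {w : W // XMin cs X w}) where
  toFun := stp cs X γ s
  invFun := ustp cs X γ s
  left_inv := ustp_stp s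
  right_inv := stp_ustp s

/-- reading a word -/
theorem prod_stp (ω : List S) : ∀ (g : G) (w : W) (hw : XMin cs X w),
    ((ω.map fun s => MulOpposite.op (stpE cs X γ s)).prod).unop (g, ⟨w, hw⟩) =
      (g * ((cw cs X w ω).map γ).prod, ⟨endW cs X w ω, hw.endW ω⟩) := by
  induction ω with
  | nil => intro g w hw; simp [cw_nil, endW_nil]
  | cons s ω ih =>
    intro g w hw
    rw [List.map_cons, List.prod_cons, MulOpposite.unop_mul, Equiv.Perm.mul_apply,
      MulOpposite.unop_op]
    change ((ω.map fun s => MulOpposite.op (stpE cs X γ s)).prod).unop (stp cs X γ s (g, ⟨w, hw⟩))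
      = _
    rcases h : letter cs X w s with _ | x
    · rw [stp_none (letter_none.1 h), ih]
      simp only [cw_none h, endW_none h]
    · obtain ⟨hx, h'⟩ := letter_some.1 h
      rw [stp_some hx h', ih]
      simp only [cw_some h, endW_some h, List.map_cons, List.prod_cons, mul_assoc]

/-- the braid relations of `X` in `G` -/
def BraidRel (M : CoxeterMatrix S) (X : Set S) (γ : S → G) : Prop :=
  ∀ x ∈ X, ∀ y ∈ X, M x y ≠ 0 →
      ((alternatingWord x y (M x y)).map γ).prod = ((alternatingWord y x (M x y)).map γ).prod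

theorem stpE_braid (hγ : BraidRel M X γ) (s t : S) (hm : M s t ≠ 0) :
    ((alternatingWord s t (M s t)).map fun s => MulOpposite.op (stpE cs X γ s)).prod =
      ((alternatingWord t s (M s t)).map fun s => MulOpposite.op (stpE cs X γ s)).prod := by
  by_cases hst : s = t
  · subst hst; rfl
  apply MulOpposite.unop_injective
  apply Equiv.ext
  rintro ⟨g, w, hw⟩
  obtain ⟨h1, h2⟩ := braid_run hw hst hm hγ
  rw [prod_stp, prod_stp, h2]
  simp only [h1]

variable (cs) in
/-- the right action of the Artin group on the state space -/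
noncomputable def rho (hγ : BraidRel M X γ) :
    ArtinGroup M →* (Equiv.Perm (G × {w : W // XMin cs X w}))ᵐᵒᵖ :=
  PresentedGroup.toGroup (f := fun s => MulOpposite.op (stpE cs X γ s)) (by
    rintro r ⟨s, t, hm, rfl⟩
    rw [map_mul, map_inv, map_list_prod, map_list_prod, List.map_map, List.map_map]
    have h1 : (⇑(FreeGroup.lift fun s => MulOpposite.op (stpE cs X γ s)) ∘ FreeGroup.of) =
        fun s => MulOpposite.op (stpE cs X γ s) := by
      funext s; simp
    rw [h1, stpE_braid hγ s t hm, mul_inv_cancel])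

theorem rho_gen (hγ : BraidRel M X γ) (s : S) :
    rho cs hγ (artinGen M s) = MulOpposite.op (stpE cs X γ s) :=
  PresentedGroup.toGroup.of _

/-- the right action, unopposed -/
noncomputable def actR (hγ : BraidRel M X γ) (p : G × {w : W // XMin cs X w})
    (a : ArtinGroup M) : G × {w : W // XMin cs X w} :=
  (rho cs hγ a).unop p

theorem actR_one (hγ : BraidRel M X γ) (p : G × {w : W // XMin cs X w}) :
    actR hγ p 1 = p := by
  simp [actR]

theorem actR_mul (hγ : BraidRel M X γ) (p : G × {w : W // XMin cs X w}) (a b : ArtinGroup M) :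
    actR hγ p (a * b) = actR hγ (actR hγ p a) b := by
  simp [actR]

theorem actR_gen (hγ : BraidRel M X γ) (p : G × {w : W // XMin cs X w}) (s : S) :
    actR hγ p (artinGen M s) = stp cs X γ s p := by
  simp [actR, rho_gen, stpE]

theorem actR_gen_inv (hγ : BraidRel M X γ) (p : G × {w : W // XMin cs X w}) (s : S) :
    actR hγ p (artinGen M s)⁻¹ = ustp cs X γ s p := by
  simp only [actR, map_inv, rho_gen, MulOpposite.unop_inv, MulOpposite.unop_op]
  rfl

/-- the actions of `G` on the left and of the Artin group on the right commute -/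
theorem stp_smul (s : S) (h : G) (p : G × {w : W // XMin cs X w}) :
    stp cs X γ s (h * p.1, p.2) = (h * (stp cs X γ s p).1, (stp cs X γ s p).2) := by
  obtain ⟨g, w, hw⟩ := p
  by_cases h : ∃ x ∈ X, act cs w (Finsupp.single s 1) = Finsupp.single x 1
  · obtain ⟨x, hx, h⟩ := h
    rw [stp_some hx h, stp_some hx h, mul_assoc]
  · push Not at h
    rw [stp_none h, stp_none h]

theorem ustp_smul (s : S) (h : G) (p : G × {w : W // XMin cs X w}) :
    ustp cs X γ s (h * p.1, p.2) = (h * (ustp cs X γ s p).1, (ustp cs X γ s p).2) := by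
  obtain ⟨g, w, hw⟩ := p
  by_cases h : ∃ x ∈ X, act cs w (Finsupp.single s 1) = Finsupp.single x 1
  · obtain ⟨x, hx, h⟩ := h
    rw [ustp_some hx h, ustp_some hx h, mul_assoc]
  · push Not at h
    rw [ustp_none h, ustp_none h]

end Action

/-- induction on elements of the subgroup generated by `X`, by right multiplication -/
theorem closure_induction_right {X : Set S}
    {p : (a : ArtinGroup M) → a ∈ Subgroup.closure (artinGen M '' X) → Prop}
    (one : p 1 (one_mem _))
    (mul : ∀ a ha, ∀ x, ∀ hx : x ∈ X, p a ha →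
      p (a * artinGen M x) (mul_mem ha (Subgroup.subset_closure ⟨x, hx, rfl⟩)))
    (mul_inv : ∀ a ha, ∀ x, ∀ hx : x ∈ X, p a ha →
      p (a * (artinGen M x)⁻¹) (mul_mem ha (inv_mem (Subgroup.subset_closure ⟨x, hx, rfl⟩))))
    {a : ArtinGroup M}
    (ha : a ∈ Subgroup.closure (artinGen M '' X)) : p a ha := by
  refine Subgroup.closure_induction_right (p := p) one ?_ ?_ ha
  · rintro a ha _ ⟨x, hx, rfl⟩ h
    exact mul a ha x hx h
  · rintro a ha _ ⟨x, hx, rfl⟩ h
    exact mul_inv a ha x hx h

theorem gen_induction_right {p : ArtinGroup M → Prop} (one : p 1)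
    (mul : ∀ a x, p a → p (a * artinGen M x))
    (mul_inv : ∀ a x, p a → p (a * (artinGen M x)⁻¹)) (a : ArtinGroup M) : p a := by
  refine closure_induction_right (X := Set.univ) (p := fun a _ => p a) one
    (fun a _ x _ => mul a x) (fun a _ x _ => mul_inv a x) ?_
  have h : Subgroup.closure (artinGen M '' Set.univ) = ⊤ := by
    rw [Set.image_univ]
    exact PresentedGroup.closure_range_of _
  rw [h]; exact Subgroup.mem_top a

section Consequences

variable {W : Type*} [Group W] {cs : CoxeterSystem M W} {X : Set S} {G : Type*} [Group G]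
  {γ : S → G}

theorem actR_smul (hγ : BraidRel M X γ) (h : G) (p : G × {w : W // XMin cs X w})
    (a : ArtinGroup M) :
    actR hγ (h * p.1, p.2) a = (h * (actR hγ p a).1, (actR hγ p a).2) := by
  induction a using gen_induction_right with
  | one => simp [actR_one]
  | mul a x ih => rw [actR_mul, actR_mul, ih, actR_gen, actR_gen, stp_smul]
  | mul_inv a x ih => rw [actR_mul, actR_mul, ih, actR_gen_inv, actR_gen_inv, ustp_smul]

theorem act_one_single (x : S) : act cs 1 (Finsupp.single x 1) = Finsupp.single x 1 :=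
  act_one_apply _

/-- a homomorphism from `G` (e.g. the Artin group of `X`) compatible with the generators -/
theorem actR_one_of_mem (hγ : BraidRel M X γ) {a : ArtinGroup M}
    (ha : a ∈ Subgroup.closure (artinGen M '' X)) :
    ∀ g : G, (actR (cs := cs) hγ (g, ⟨1, XMin_one X⟩) a).2.1 = 1 := by
  have key : ∃ h : G, ∀ g : G, actR (cs := cs) hγ (g, ⟨1, XMin_one X⟩) a =
      (g * h, ⟨1, XMin_one X⟩) := by
    induction ha using closure_induction_right with
    | one => exact ⟨1, fun g => by rw [actR_one, mul_one]⟩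
    | mul a _ x hx ih =>
      obtain ⟨h, ih⟩ := ih
      exact ⟨h * γ x, fun g => by
        rw [actR_mul, ih, actR_gen, stp_some hx (act_one_single x), mul_assoc]⟩
    | mul_inv a _ x hx ih =>
      obtain ⟨h, ih⟩ := ih
      exact ⟨h * (γ x)⁻¹, fun g => by
        rw [actR_mul, ih, actR_gen_inv, ustp_some hx (act_one_single x), mul_assoc]⟩
  intro g
  obtain ⟨h, hh⟩ := key
  rw [hh]

end Consequences

/-! ### The Artin group of `X` -/

/-- the restriction of a Coxeter matrix -/
def restr (M : CoxeterMatrix S) (X : Set S) : CoxeterMatrix X where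
  M := Matrix.of fun a b => M a.1 b.1
  isSymm := by
    apply Matrix.IsSymm.ext
    intro a b
    exact M.symmetric _ _
  diagonal := fun a => M.diagonal _
  off_diagonal := fun a b h => M.off_diagonal _ _ fun h' => h (Subtype.ext h')

theorem restr_apply (X : Set S) (a b : X) : restr M X a b = M a.1 b.1 := rfl

theorem alternatingWord_map {T : Type*} (f : T → S) (a b : T) (n : ℕ) :
    (alternatingWord a b n).map f = alternatingWord (f a) (f b) n := by
  induction n with
  | zero => rfl
  | succ n ih =>
    rw [alternatingWord_succ', alternatingWord_succ', List.map_cons, ih]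
    split_ifs <;> rfl

/-- the braid relations in the Artin group -/
theorem artin_braid (M : CoxeterMatrix S) {s t : S} (h : M s t ≠ 0) :
    ((alternatingWord s t (M s t)).map (artinGen M)).prod =
      ((alternatingWord t s (M s t)).map (artinGen M)).prod := by
  have h1 : PresentedGroup.mk (braidRelators M)
      (((alternatingWord s t (M s t)).map FreeGroup.of).prod *
      (((alternatingWord t s (M s t)).map FreeGroup.of).prod)⁻¹) = 1 :=
    PresentedGroup.one_of_mem ⟨s, t, h, rfl⟩
  rw [map_mul, map_inv, mul_inv_eq_one, map_list_prod, map_list_prod, List.map_map,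
    List.map_map] at h1
  exact h1

/-- the natural map `A_X → A_S` -/
noncomputable def inclA (M : CoxeterMatrix S) (X : Set S) :
    ArtinGroup (restr M X) →* ArtinGroup M :=
  PresentedGroup.toGroup (f := fun x : X => artinGen M x.1) (by
    rintro r ⟨s, t, hm, rfl⟩
    rw [map_mul, map_inv, map_list_prod, map_list_prod, List.map_map, List.map_map]
    have h1 : (⇑(FreeGroup.lift fun x : X => artinGen M x.1) ∘ FreeGroup.of) =
        artinGen M ∘ Subtype.val := by
      funext s; simp
    rw [h1, ← List.map_map, ← List.map_map, alternatingWord_map Subtype.val s t,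
      alternatingWord_map Subtype.val t s, restr_apply, artin_braid M hm, mul_inv_cancel])

theorem inclA_gen (X : Set S) (x : X) : inclA M X (artinGen _ x) = artinGen M x.1 :=
  PresentedGroup.toGroup.of _

theorem range_inclA (X : Set S) :
    (inclA M X).range = Subgroup.closure (artinGen M '' X) := by
  apply le_antisymm
  · rintro _ ⟨a, rfl⟩
    have : ∀ a, inclA M X a ∈ Subgroup.closure (artinGen M '' X) := by
      intro a
      induction a using gen_induction_right with
      | one => simp
      | mul a x ih =>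
        rw [map_mul, inclA_gen]
        exact mul_mem ih (Subgroup.subset_closure ⟨x.1, x.2, rfl⟩)
      | mul_inv a x ih =>
        rw [map_mul, map_inv, inclA_gen]
        exact mul_mem ih (inv_mem (Subgroup.subset_closure ⟨x.1, x.2, rfl⟩))
    exact this a
  · rw [Subgroup.closure_le]
    rintro _ ⟨x, hx, rfl⟩
    exact ⟨artinGen _ ⟨x, hx⟩, inclA_gen X ⟨x, hx⟩⟩

open Classical in
/-- the generators of `A_X`, extended by `1` -/
noncomputable def genX (M : CoxeterMatrix S) (X : Set S) (s : S) : ArtinGroup (restr M X) :=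
  if h : s ∈ X then artinGen _ ⟨s, h⟩ else 1

theorem genX_coe (X : Set S) (x : X) : genX M X x.1 = artinGen _ x := by
  unfold genX
  rw [dif_pos x.2]

theorem braidRel_genX (X : Set S) : BraidRel M X (genX M X) := by
  intro x hx y hy hm
  have h1 := artin_braid (restr M X) (s := ⟨x, hx⟩) (t := ⟨y, hy⟩) hm
  have h2 : artinGen (restr M X) = genX M X ∘ Subtype.val := by
    funext z; exact (genX_coe X z).symm
  rw [h2, ← List.map_map, ← List.map_map,
    alternatingWord_map Subtype.val (⟨x, hx⟩ : X) ⟨y, hy⟩,
    alternatingWord_map Subtype.val (⟨y, hy⟩ : X) ⟨x, hx⟩] at h1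
  exact h1

/-- **van der Lek**: `A_X → A_S` is injective -/
theorem inclA_injective (M : CoxeterMatrix S) (X : Set S) : Function.Injective (inclA M X) := by
  let cs := M.toCoxeterSystem
  have key : ∀ a : ArtinGroup (restr M X), ∀ g,
      actR (cs := cs) (braidRel_genX X) (g, ⟨1, XMin_one X⟩) (inclA M X a) =
        (g * a, ⟨1, XMin_one X⟩) := by
    intro a
    induction a using gen_induction_right with
    | one => intro g; rw [map_one, actR_one, mul_one]
    | mul a x ih =>
      intro g
      rw [map_mul, actR_mul, ih, inclA_gen, actR_gen, stp_some x.2 (act_one_single x.1),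
        genX_coe, mul_assoc]
    | mul_inv a x ih =>
      intro g
      rw [map_mul, map_inv, actR_mul, ih, inclA_gen, actR_gen_inv,
        ustp_some x.2 (act_one_single x.1), genX_coe, mul_assoc]
  rw [injective_iff_map_eq_one]
  intro a ha
  have h1 := key a 1
  rw [ha, actR_one, one_mul] at h1
  exact (congrArg Prod.fst h1).symm

/-! ### The retraction and intersections -/

theorem braidRel_artinGen (X : Set S) : BraidRel M X (artinGen M) :=
  fun _ _ _ _ hm => artin_braid M hm

/-- the state reached by `a` from the base state -/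
noncomputable def retrSt (M : CoxeterMatrix S) (X : Set S) (a : ArtinGroup M) :
    ArtinGroup M × {w : M.Group // XMin M.toCoxeterSystem X w} :=
  actR (braidRel_artinGen X) (1, ⟨1, XMin_one X⟩) a

/-- the set-theoretic retraction `A_S → A_X` -/
noncomputable def retr (M : CoxeterMatrix S) (X : Set S) (a : ArtinGroup M) : ArtinGroup M :=
  (retrSt M X a).1

theorem retrSt_of_mem {X : Set S} {a : ArtinGroup M}
    (ha : a ∈ Subgroup.closure (artinGen M '' X)) :
    retrSt M X a = (a, ⟨1, XMin_one X⟩) := by
  unfold retrSt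
  induction ha using closure_induction_right with
  | one => rw [actR_one]
  | mul a _ x hx ih => rw [actR_mul, ih, actR_gen, stp_some hx (act_one_single x)]
  | mul_inv a _ x hx ih => rw [actR_mul, ih, actR_gen_inv, ustp_some hx (act_one_single x)]

theorem retr_of_mem {X : Set S} {a : ArtinGroup M}
    (ha : a ∈ Subgroup.closure (artinGen M '' X)) : retr M X a = a := by
  rw [retr, retrSt_of_mem ha]

theorem retr_mul {X : Set S} {a : ArtinGroup M}
    (ha : a ∈ Subgroup.closure (artinGen M '' X)) (b : ArtinGroup M) :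
    retr M X (a * b) = a * retr M X b := by
  unfold retr
  have h1 : retrSt M X (a * b) = actR (braidRel_artinGen X) (retrSt M X a) b := by
    unfold retrSt; rw [actR_mul]
  rw [h1, retrSt_of_mem ha]
  have h2 := actR_smul (braidRel_artinGen (M := M) X) a
    ((1 : ArtinGroup M), (⟨1, XMin_one X⟩ : {w // XMin M.toCoxeterSystem X w})) b
  simp only [mul_one] at h2
  rw [h2]
  rfl

/-- the retraction maps `A_Y` to `A_{X ∩ Y}`; the final state is in `W_Y` -/
theorem retrSt_mem_inter {X Y : Set S} {a : ArtinGroup M}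
    (ha : a ∈ Subgroup.closure (artinGen M '' Y)) :
    (retrSt M X a).1 ∈ Subgroup.closure (artinGen M '' (X ∩ Y)) ∧
      (retrSt M X a).2.1 ∈ Subgroup.closure (M.toCoxeterSystem.simple '' Y) := by
  have hmem : ∀ {w : M.Group} {y x : S}, w ∈ Subgroup.closure (M.toCoxeterSystem.simple '' Y) →
      y ∈ Y → act M.toCoxeterSystem w (Finsupp.single y 1) = Finsupp.single x 1 → x ∈ Y := by
    intro w y x hw hy h
    have h1 := act_mem_Sup hw (Finsupp.single_mem_supported ℝ 1 hy)
    rw [h] at h1
    exact (Finsupp.mem_supported ℝ _).1 h1 (by simp)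
  unfold retrSt
  induction ha using closure_induction_right with
  | one => rw [actR_one]; exact ⟨one_mem _, one_mem _⟩
  | mul a _ y hy ih =>
    rw [actR_mul, actR_gen]
    obtain ⟨ih1, ih2⟩ := ih
    generalize actR (cs := M.toCoxeterSystem) (braidRel_artinGen X) (1, ⟨1, XMin_one X⟩) a = p
      at ih1 ih2
    obtain ⟨g, w, hw⟩ := p
    by_cases h : ∃ x ∈ X, act M.toCoxeterSystem w (Finsupp.single y 1) = Finsupp.single x 1
    · obtain ⟨x, hx, h⟩ := h
      rw [stp_some hx h]
      exact ⟨mul_mem ih1 (Subgroup.subset_closure ⟨x, ⟨hx, hmem ih2 hy h⟩, rfl⟩), ih2⟩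
    · push Not at h
      rw [stp_none h]
      exact ⟨ih1, mul_mem ih2 (Subgroup.subset_closure ⟨y, hy, rfl⟩)⟩
  | mul_inv a _ y hy ih =>
    rw [actR_mul, actR_gen_inv]
    obtain ⟨ih1, ih2⟩ := ih
    generalize actR (cs := M.toCoxeterSystem) (braidRel_artinGen X) (1, ⟨1, XMin_one X⟩) a = p
      at ih1 ih2
    obtain ⟨g, w, hw⟩ := p
    by_cases h : ∃ x ∈ X, act M.toCoxeterSystem w (Finsupp.single y 1) = Finsupp.single x 1
    · obtain ⟨x, hx, h⟩ := h
      rw [ustp_some hx h]
      exact ⟨mul_mem ih1 (inv_mem (Subgroup.subset_closure ⟨x, ⟨hx, hmem ih2 hy h⟩, rfl⟩)), ih2⟩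
    · push Not at h
      rw [ustp_none h]
      exact ⟨ih1, mul_mem ih2 (Subgroup.subset_closure ⟨y, hy, rfl⟩)⟩

theorem retr_mem_inter {X Y : Set S} {a : ArtinGroup M}
    (ha : a ∈ Subgroup.closure (artinGen M '' Y)) :
    retr M X a ∈ Subgroup.closure (artinGen M '' (X ∩ Y)) :=
  (retrSt_mem_inter ha).1

theorem retr_mem (X : Set S) (a : ArtinGroup M) :
    retr M X a ∈ Subgroup.closure (artinGen M '' X) := by
  have h : Subgroup.closure (artinGen M '' Set.univ) = ⊤ := by
    rw [Set.image_univ]
    exact PresentedGroup.closure_range_of _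
  have h1 := retr_mem_inter (X := X) (Y := Set.univ) (a := a) (by rw [h]; exact Subgroup.mem_top a)
  rwa [Set.inter_univ] at h1

/-- `A_X ∩ A_Y = A_{X ∩ Y}` -/
theorem closure_inf_closure (M : CoxeterMatrix S) (X Y : Set S) :
    Subgroup.closure (artinGen M '' X) ⊓ Subgroup.closure (artinGen M '' Y) =
      Subgroup.closure (artinGen M '' (X ∩ Y)) := by
  apply le_antisymm
  · rintro a ⟨hX, hY⟩
    have h1 := retr_mem_inter (X := X) (Y := Y) (a := a) hY
    rwa [retr_of_mem hX] at h1
  · exact le_inf (Subgroup.closure_mono (Set.image_mono Set.inter_subset_left))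
      (Subgroup.closure_mono (Set.image_mono Set.inter_subset_right))

theorem mem_inter {X Y : Set S} {a : ArtinGroup M}
    (hX : a ∈ Subgroup.closure (artinGen M '' X)) (hY : a ∈ Subgroup.closure (artinGen M '' Y)) :
    a ∈ Subgroup.closure (artinGen M '' (X ∩ Y)) := by
  rw [← closure_inf_closure]; exact ⟨hX, hY⟩

end Vale.Agent.P203.Vdl
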