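import Vale.Agent.P203.Cox0.GeomRep

/-! P203, block VDL, part 1: the state machine on minimal coset representatives.

For `X : Set B` the element `w` is `XMin` if it is the shortest element of `W_X w`
(equivalently `w⁻¹ α_x > 0` for `x ∈ X`).  Reading a letter `s` in the state `w` one emits the
letter `x` and stays in the state `w` if `w s = x w` with `x ∈ X` (i.e. `w α_s = α_x`), and one
moves to the state `w s` otherwise.  The main result is `braid_end` / `braid_cw`: the two
alternating words of length `M s t` give the same final state and the same output. -/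

set_option linter.all false

namespace Vale.Agent.P203.Vdl

open Vale.Agent.P203.Cox CoxeterSystem

variable {B : Type*} {W : Type*} [Group W] {M : CoxeterMatrix B} {cs : CoxeterSystem M W}

/-- vectors supported on `X` -/
noncomputable abbrev Sup (X : Set B) : Submodule ℝ (VSp B) := Finsupp.supported ℝ ℝ X

/-- `w` is the minimal element of its coset `W_X w` -/
def XMin (cs : CoxeterSystem M W) (X : Set B) (w : W) : Prop :=
  ∀ x ∈ X, NN (act cs w⁻¹ (Finsupp.single x 1))

theorem single_ne_zero' (i : B) : (Finsupp.single i (1 : ℝ)) ≠ 0 := by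
  simp

theorem act_single_ne_zero (w : W) (i : B) : act cs w (Finsupp.single i 1) ≠ 0 := by
  intro h
  have h1 := congrArg (act cs w⁻¹) h
  rw [act_inv_apply_self, map_zero] at h1
  exact single_ne_zero' i h1

theorem sign (w : W) (i : B) :
    NN (act cs w (Finsupp.single i 1)) ∨ NN (-(act cs w (Finsupp.single i 1))) := by
  rcases act_single_eq_or (cs := cs) (w := w) (i := i) with h | h
  · left; rw [h]; exact root_NN _
  · right; rw [h, neg_neg]; exact root_NN _

theorem XMin_one (X : Set B) : XMin cs X 1 := by
  intro x _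
  rw [inv_one, act_one_apply]
  exact NN_single x

/-- a positive root which is a multiple of a simple root is the simple root -/
theorem eq_single_of {w : W} {x s : B} (h : NN (act cs w (Finsupp.single x 1)))
    (h0 : ∀ i, i ≠ s → act cs w (Finsupp.single x 1) i = 0) :
    act cs w (Finsupp.single x 1) = Finsupp.single s 1 := by
  set b := act cs w (Finsupp.single x 1) with hb
  have hbj : b = b s • Finsupp.single s (1 : ℝ) := by
    ext k
    by_cases hk : k = s
    · subst hk; simp
    · rw [h0 k hk]
      simp only [Finsupp.coe_smul, Pi.smul_apply, smul_eq_mul]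
      rw [Finsupp.single_eq_of_ne hk]; simp
  have hbb : form M b b = 2 := by rw [hb, form_act, datum_act, gram_self]
  have hb1 : b s = 1 := by
    rw [hbj] at hbb
    simp only [map_smul, LinearMap.smul_apply, datum_act, gram_self, smul_eq_mul] at hbb
    have h0 := h s
    nlinarith only [hbb, h0]
  rw [hbj, hb1, one_smul]

/-- nonnegative combinations of `α_x`, `x ∈ X`, are mapped by `w⁻¹` to nonnegative vectors -/
theorem XMin.act_NN {X : Set B} {w : W} (hw : XMin cs X w) {v : VSp B} (hv : NN v)
    (hX : v ∈ Sup X) : NN (act cs w⁻¹ v) := by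
  classical
  have h1 : v = ∑ i ∈ v.support, v i • Finsupp.single i (1 : ℝ) := by
    conv_lhs => rw [← Finsupp.sum_single v]
    rw [Finsupp.sum]
    exact Finset.sum_congr rfl fun i _ => by simp
  rw [h1, map_sum]
  intro k
  rw [Finsupp.finsetSum_apply]
  refine Finset.sum_nonneg fun i hi => ?_
  rw [map_smul]
  have hiX : i ∈ X := (Finsupp.mem_supported ℝ v).1 hX (Finset.mem_coe.2 hi)
  exact ((hw i hiX).smul (hv i)) k

/-- if `w` is minimal and `w α_s` is supported on `X` then it is a simple root in `X` -/
theorem exists_of_mem_Sup {X : Set B} {w : W} (hw : XMin cs X w) {s : B}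
    (h : act cs w (Finsupp.single s 1) ∈ Sup X) :
    ∃ x ∈ X, act cs w (Finsupp.single s 1) = Finsupp.single x 1 := by
  classical
  set g := act cs w (Finsupp.single s 1) with hg
  have hback : act cs w⁻¹ g = Finsupp.single s 1 := by rw [hg, act_inv_apply_self]
  have hpos : NN g := by
    rcases sign (cs := cs) w s with h1 | h1
    · exact h1
    · exfalso
      have h2 := hw.act_NN h1 ((Submodule.neg_mem_iff _).2 h)
      rw [← hg, map_neg, hback] at h2
      exact single_ne_zero' s (eq_zero_of_NN (NN_single s) h2)
  have hne : g ≠ 0 := act_single_ne_zero w s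
  obtain ⟨x, hx⟩ : ∃ x, g x ≠ 0 := by
    by_contra hcon
    push Not at hcon
    exact hne (Finsupp.ext hcon)
  have hxX : x ∈ X := (Finsupp.mem_supported ℝ g).1 h (by simpa using hx)
  have hx0 : 0 < g x := lt_of_le_of_ne (hpos x) (Ne.symm hx)
  set g' := g - g x • Finsupp.single x (1 : ℝ) with hg'
  have hg'NN : NN g' := by
    intro k
    by_cases hk : k = x
    · subst hk; simp [hg']
    · simp only [hg', Finsupp.coe_sub, Finsupp.coe_smul, Pi.sub_apply, Pi.smul_apply, smul_eq_mul]
      rw [Finsupp.single_eq_of_ne hk]
      simpa using hpos k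
  have hxS : Finsupp.single x (1 : ℝ) ∈ Sup X := Finsupp.single_mem_supported ℝ 1 hxX
  have hg'S : g' ∈ Sup X := Submodule.sub_mem _ h (Submodule.smul_mem _ _ hxS)
  have h1 := hw.act_NN hg'NN hg'S
  have h2 := hw x hxX
  have h3 : Finsupp.single s (1 : ℝ) = g x • act cs w⁻¹ (Finsupp.single x 1) + act cs w⁻¹ g' := by
    rw [hg', map_sub, map_smul, hback]; abel
  have h4 : act cs w⁻¹ (Finsupp.single x 1) = Finsupp.single s 1 := by
    apply eq_single_of h2
    intro i hi
    have h5 := congrArg (fun v => v i) h3
    simp only [Finsupp.coe_add, Finsupp.coe_smul, Pi.add_apply, Pi.smul_apply, smul_eq_mul] at h5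
    rw [Finsupp.single_eq_of_ne hi] at h5
    have h6 := h1 i
    have h7 := h2 i
    have h8 : 0 ≤ g x * (act cs w⁻¹ (Finsupp.single x 1)) i := mul_nonneg hx0.le h7
    have h9 : g x * (act cs w⁻¹ (Finsupp.single x 1)) i = 0 := by linarith
    rcases mul_eq_zero.1 h9 with h10 | h10
    · exact absurd h10 hx0.ne'
    · exact h10
  refine ⟨x, hxX, ?_⟩
  rw [hg, ← h4, act_self_inv_apply]

/-- if `w α_s` is not a simple root of `X` then `w s` is again minimal -/
theorem XMin.mul {X : Set B} {w : W} (hw : XMin cs X w) {s : B}
    (h : ∀ x ∈ X, act cs w (Finsupp.single s 1) ≠ Finsupp.single x 1) :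
    XMin cs X (w * cs.simple s) := by
  intro x hx
  have hb := hw x hx
  have he : act cs (w * cs.simple s)⁻¹ (Finsupp.single x 1) =
      act cs (cs.simple s) (act cs w⁻¹ (Finsupp.single x 1)) := by
    rw [mul_inv_rev, cs.inv_simple, act_mul_apply]
  rcases sign (cs := cs) (w * cs.simple s)⁻¹ x with h1 | h1
  · exact h1
  · exfalso
    rw [he, act_simple] at h1
    have h2 : act cs w⁻¹ (Finsupp.single x 1) = Finsupp.single s 1 := by
      apply eq_single_of hb
      intro i hi
      have e1 := hb i
      have e2 := h1 i
      simp only [Finsupp.coe_neg, Pi.neg_apply, Finsupp.coe_sub, Pi.sub_apply,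
        Finsupp.coe_smul, Pi.smul_apply, smul_eq_mul] at e2
      rw [Finsupp.single_eq_of_ne hi] at e2
      linarith
    exact h x hx (by rw [← h2, act_self_inv_apply])

/-- `w α_s = α_x` implies `w s = x w` -/
theorem mul_simple_of_act {w : W} {s x : B}
    (h : act cs w (Finsupp.single s 1) = Finsupp.single x 1) :
    w * cs.simple s = cs.simple x * w := by
  have h1 : act cs w (Finsupp.single s 1) = root cs (w * cs.simple s * w⁻¹) :=
    act_single_of_NN (by rw [h]; exact NN_single x)
  have h2 := root_inj ⟨w, s, rfl⟩ (cs.isReflection_simple x)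
    (h1.symm.trans (h.trans (root_simple x).symm))
  rw [← h2]; group

theorem simple_inj {x y : B} (h : cs.simple x = cs.simple y) : x = y := by
  have h1 := root_simple (cs := cs) x
  rw [h, root_simple] at h1
  exact (Finsupp.single_left_injective one_ne_zero h1).symm

/-! ### The state machine -/

open Classical in
/-- the letter emitted by the state `w` on input `s` -/
noncomputable def letter (cs : CoxeterSystem M W) (X : Set B) (w : W) (s : B) : Option B :=
  if h : ∃ x ∈ X, act cs w (Finsupp.single s 1) = Finsupp.single x 1 then some h.choose else none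

theorem letter_some {X : Set B} {w : W} {s x : B} :
    letter cs X w s = some x ↔ x ∈ X ∧ act cs w (Finsupp.single s 1) = Finsupp.single x 1 := by
  unfold letter
  split_ifs with h
  · have h1 := h.choose_spec
    constructor
    · intro h2
      have h3 : h.choose = x := by simpa using h2
      rw [← h3]; exact h1
    · intro h2
      have h3 : h.choose = x :=
        Finsupp.single_left_injective one_ne_zero (h1.2.symm.trans h2.2)
      rw [h3]
  · constructor
    · intro h2; simp at h2
    · intro h2; exact absurd ⟨x, h2⟩ h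

theorem letter_none {X : Set B} {w : W} {s : B} :
    letter cs X w s = none ↔
      ∀ x ∈ X, act cs w (Finsupp.single s 1) ≠ Finsupp.single x 1 := by
  unfold letter
  split_ifs with h
  · constructor
    · intro h2; simp at h2
    · intro h2
      obtain ⟨x, hx, hx'⟩ := h
      exact absurd hx' (h2 x hx)
  · push Not at h
    simpa using h

/-- the final state after reading a word -/
noncomputable def endW (cs : CoxeterSystem M W) (X : Set B) : W → List B → W
  | w, [] => w
  | w, s :: ω => (letter cs X w s).elim (endW cs X (w * cs.simple s) ω) (fun _ => endW cs X w ω)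

/-- the output word -/
noncomputable def cw (cs : CoxeterSystem M W) (X : Set B) : W → List B → List B
  | _, [] => []
  | w, s :: ω => (letter cs X w s).elim (cw cs X (w * cs.simple s) ω)
      (fun x => x :: cw cs X w ω)

theorem endW_nil (X : Set B) (w : W) : endW cs X w [] = w := rfl
theorem cw_nil (X : Set B) (w : W) : cw cs X w [] = [] := rfl

theorem endW_some {X : Set B} {w : W} {s x : B} {ω : List B} (h : letter cs X w s = some x) :
    endW cs X w (s :: ω) = endW cs X w ω := by
  rw [endW, h]; rfl

theorem endW_none {X : Set B} {w : W} {s : B} {ω : List B} (h : letter cs X w s = none) :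
    endW cs X w (s :: ω) = endW cs X (w * cs.simple s) ω := by
  rw [endW, h]; rfl

theorem cw_some {X : Set B} {w : W} {s x : B} {ω : List B} (h : letter cs X w s = some x) :
    cw cs X w (s :: ω) = x :: cw cs X w ω := by
  rw [cw, h]; rfl

theorem cw_none {X : Set B} {w : W} {s : B} {ω : List B} (h : letter cs X w s = none) :
    cw cs X w (s :: ω) = cw cs X (w * cs.simple s) ω := by
  rw [cw, h]; rfl

theorem XMin.endW {X : Set B} : ∀ {w : W} (_ : XMin cs X w) (ω : List B),
    XMin cs X (endW cs X w ω)
  | w, hw, [] => hw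
  | w, hw, s :: ω => by
    rcases h : letter cs X w s with _ | x
    · rw [endW_none h]
      exact XMin.endW (hw.mul (letter_none.1 h)) ω
    · rw [endW_some h]
      exact XMin.endW hw ω

theorem mem_of_mem_cw {X : Set B} : ∀ {w : W} {ω : List B} {x : B}, x ∈ cw cs X w ω → x ∈ X
  | w, [], x, hx => by simp [cw_nil] at hx
  | w, s :: ω, x, hx => by
    rcases h : letter cs X w s with _ | y
    · rw [cw_none h] at hx
      exact mem_of_mem_cw hx
    · rw [cw_some h] at hx
      rcases List.mem_cons.1 hx with rfl | hx
      · exact (letter_some.1 h).1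
      · exact mem_of_mem_cw hx

theorem wordProd_cw {X : Set B} : ∀ (w : W) (ω : List B),
    cs.wordProd (cw cs X w ω) * endW cs X w ω = w * cs.wordProd ω
  | w, [] => by simp [cw_nil, endW_nil]
  | w, s :: ω => by
    rcases h : letter cs X w s with _ | y
    · rw [cw_none h, endW_none h, wordProd_cw, cs.wordProd_cons, mul_assoc]
    · rw [cw_some h, endW_some h, cs.wordProd_cons, mul_assoc, wordProd_cw, ← mul_assoc,
        ← mul_simple_of_act (letter_some.1 h).2, cs.wordProd_cons, mul_assoc]

/-! ### Uniqueness of the decomposition -/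

theorem act_simple_mem_Sup {X : Set B} {x : B} (hx : x ∈ X) (v : VSp B) :
    act cs (cs.simple x) v - v ∈ Sup X := by
  rw [act_simple, sub_sub_cancel_left]
  exact (Submodule.neg_mem_iff _).2
    (Submodule.smul_mem _ _ (Finsupp.single_mem_supported ℝ 1 hx))

theorem act_sub_mem_Sup {X : Set B} {u : W} (hu : u ∈ Subgroup.closure (cs.simple '' X)) :
    ∀ v : VSp B, act cs u v - v ∈ Sup X := by
  induction hu using Subgroup.closure_induction with
  | mem u hu =>
    obtain ⟨x, hx, rfl⟩ := hu
    exact act_simple_mem_Sup hx
  | one => intro v; rw [act_one_apply, sub_self]; exact Submodule.zero_mem _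
  | mul u u' _ _ ih ih' =>
    intro v
    have h1 := ih (act cs u' v)
    have h2 := ih' v
    rw [act_mul_apply]
    have := Submodule.add_mem _ h1 h2
    simpa using this
  | inv u _ ih =>
    intro v
    have h1 := ih (act cs u⁻¹ v)
    rw [act_self_inv_apply] at h1
    have := (Submodule.neg_mem_iff _).2 h1
    simpa using this

theorem act_mem_Sup {X : Set B} {u : W} (hu : u ∈ Subgroup.closure (cs.simple '' X))
    {v : VSp B} (hv : v ∈ Sup X) : act cs u v ∈ Sup X := by
  have := Submodule.add_mem _ (act_sub_mem_Sup hu v) hv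
  simpa using this

theorem eq_one_of_XMin {X : Set B} {u w w' : W} (hu : u ∈ Subgroup.closure (cs.simple '' X))
    (hw : XMin cs X w) (hw' : XMin cs X w') (h : u * w = w') : u = 1 := by
  by_contra hne
  have hne' : u⁻¹ ≠ 1 := by simpa using hne
  obtain ⟨j, hj⟩ := cs.exists_rightDescent_of_ne_one hne'
  unfold CoxeterSystem.IsRightDescent at hj
  have h1 : NN (-(act cs u⁻¹ (Finsupp.single j 1))) := by
    have h2 := act_single_NN (cs := cs) _ (u⁻¹ * cs.simple j) j rfl
      (by rwa [cs.simple_mul_simple_cancel_right])
    rwa [act_mul_apply, act_simple_self, map_neg] at h2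
  have hui : u⁻¹ ∈ Subgroup.closure (cs.simple '' X) := inv_mem hu
  have hjX : j ∈ X := by
    by_contra hjX
    have h3 := act_sub_mem_Sup hui (Finsupp.single j 1)
    set z : VSp B := act cs u⁻¹ (Finsupp.single j 1) with hz
    obtain ⟨z', hz'⟩ : ∃ z' : VSp B, z' = z - Finsupp.single j 1 := ⟨_, rfl⟩
    rw [← hz'] at h3
    have h4 : z' j = 0 := by
      by_contra h5
      exact hjX ((Finsupp.mem_supported ℝ _).1 h3 (Finsupp.mem_support_iff.2 h5))
    have h5 := h1 j
    rw [hz'] at h4
    simp only [Finsupp.coe_neg, Pi.neg_apply] at h5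
    simp only [Finsupp.coe_sub, Pi.sub_apply, Finsupp.single_eq_same] at h4
    linarith
  have h6 := hw.act_NN h1 ((Submodule.neg_mem_iff _).2
    (act_mem_Sup hui (Finsupp.single_mem_supported ℝ 1 hjX)))
  have h7 := hw' j hjX
  rw [← h, mul_inv_rev, act_mul_apply] at h7
  rw [map_neg] at h6
  have h8 := eq_zero_of_NN h7 h6
  have h9 := act_single_ne_zero (cs := cs) (w⁻¹ * u⁻¹) j
  rw [act_mul_apply] at h9
  exact h9 h8

theorem wordProd_mem {X : Set B} {ω : List B} (h : ∀ x ∈ ω, x ∈ X) :
    cs.wordProd ω ∈ Subgroup.closure (cs.simple '' X) := by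
  induction ω with
  | nil => simp
  | cons s ω ih =>
    rw [cs.wordProd_cons]
    exact mul_mem (Subgroup.subset_closure ⟨s, h s (by simp), rfl⟩)
      (ih fun x hx => h x (by simp [hx]))

/-- the output of a word (as an element of `W`) and the final state only depend on the
element represented by the word -/
theorem cw_unique {X : Set B} {w : W} (hw : XMin cs X w) {ω ω' : List B}
    (h : cs.wordProd ω = cs.wordProd ω') :
    cs.wordProd (cw cs X w ω) = cs.wordProd (cw cs X w ω') ∧
      endW cs X w ω = endW cs X w ω' := by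
  have h1 := wordProd_cw (cs := cs) (X := X) w ω
  have h2 := wordProd_cw (cs := cs) (X := X) w ω'
  rw [h, ← h2] at h1
  have hm := wordProd_mem (cs := cs) (X := X) (ω := cw cs X w ω) fun x hx => mem_of_mem_cw hx
  have hm' := wordProd_mem (cs := cs) (X := X) (ω := cw cs X w ω') fun x hx => mem_of_mem_cw hx
  have h3 : (cs.wordProd (cw cs X w ω'))⁻¹ * cs.wordProd (cw cs X w ω) = 1 := by
    apply eq_one_of_XMin (cs := cs) (X := X) (mul_mem (inv_mem hm') hm) (hw.endW ω) (hw.endW ω')
    rw [mul_assoc, h1]; group
  have h4 : cs.wordProd (cw cs X w ω) = cs.wordProd (cw cs X w ω') := by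
    rw [inv_mul_eq_one] at h3; exact h3.symm
  refine ⟨h4, ?_⟩
  rw [h4] at h1
  exact mul_left_cancel h1

end Vale.Agent.P203.Vdl
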